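import Vale.Agent.P032.Six
import Mathlib.Topology.Baire.Lemmas
import Mathlib.Topology.Baire.BaireMeasurable
import Mathlib.Topology.Baire.CompleteMetrizable

/-!
Five colour classes with the Baire property do not colour the plane properly: at least six colours
are needed.
-/

namespace Vale.Agent.Results.P032.BaireSixColours

open Metric Set Vale.Agent.P032

/-- A colouring of the plane by five classes with the Baire property has two points at unit distance
of one colour. -/
theorem result (c : ℂ → Fin 5) (hc : ∀ i, BaireMeasurableSet (c ⁻¹' {i})) :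
    ∃ y z : ℂ, dist y z = 1 ∧ c y = c z := by
  by_contra hcon
  push Not at hcon
  have hU : ∀ i, ∃ U : Set ℂ, IsOpen U ∧ ∃ M : Set ℂ, IsMeagre M ∧
      ∀ p, p ∉ M → (p ∈ c ⁻¹' {i} ↔ p ∈ U) := by
    intro i
    obtain ⟨U, hUo, hUe⟩ := BaireMeasurableSet.iff_residualEq_isOpen.1 (hc i)
    refine ⟨U, hUo, {p | ¬(p ∈ c ⁻¹' {i} ↔ p ∈ U)}, ?_, fun p hp => not_not.1 hp⟩
    have h := Filter.eventuallyEq_set.1 hUe
    exact Filter.mem_of_superset h fun p hp h' => h' hp
  choose U hUo M hM hMU using hU
  set E : Fin 5 → Set ℂ := fun i => interior (closure (U i)) with hEdef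
  have hE : ∀ i, IsOpen (E i) := fun i => isOpen_interior
  have hUE : ∀ i, U i ⊆ E i := fun i => interior_maximal subset_closure (hUo i)
  have hEcl : ∀ i, closure (E i) = closure (U i) := fun i =>
    (closure_minimal interior_subset isClosed_closure).antisymm (closure_mono (hUE i))
  have hR : ∀ i, interior (closure (E i)) = E i := fun i => by rw [hEcl i]
  have hUd : ∀ i j, i ≠ j → Disjoint (U i) (U j) := by
    intro i j hij
    rw [Set.disjoint_iff_inter_eq_empty]
    by_contra hne
    refine not_isMeagre_of_isOpen ((hUo i).inter (hUo j)) (nonempty_iff_ne_empty.2 hne)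
      (((hM i).union (hM j)).mono ?_)
    intro p hp
    by_contra hn
    rw [mem_union, not_or] at hn
    exact hij (((hMU i p hn.1).2 hp.1).symm.trans ((hMU j p hn.2).2 hp.2))
  have hd : ∀ i j, i ≠ j → Disjoint (E i) (E j) := by
    intro i j hij
    have h1 : Disjoint (closure (U i)) (U j) := (hUd i j hij).closure_left (hUo j)
    exact ((h1.mono_left interior_subset).closure_right isOpen_interior).mono_right interior_subset
  have hcl : ∀ x, ∃ i, x ∈ closure (E i) := by
    intro x
    by_contra hn
    push Not at hn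
    refine not_isMeagre_of_isOpen
      (isOpen_iInter_of_finite fun i => (isClosed_closure (s := E i)).isOpen_compl)
      ⟨x, mem_iInter.2 hn⟩ ((isMeagre_iUnion hM).mono ?_)
    intro p hp
    refine mem_iUnion.2 ⟨c p, by_contra fun hpM => mem_iInter.1 hp (c p) ?_⟩
    exact subset_closure (hUE _ ((hMU (c p) p hpM).1 rfl))
  have hB : ∀ i, ∀ y ∈ E i, ∀ z ∈ E i, dist y z ≠ 1 := by
    intro i y hy z hz hyz
    set W := (fun δ => y + δ) ⁻¹' E i ∩ (fun δ => z + δ) ⁻¹' E i with hW
    have hWo : IsOpen W := ((hE i).preimage (continuous_const_add y)).inter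
      ((hE i).preimage (continuous_const_add z))
    have h1 : (W ∩ (fun δ => y + δ) ⁻¹' U i).Nonempty := by
      have hcl' : y ∈ closure (U i) := interior_subset hy
      obtain ⟨q, hq, hqU⟩ := mem_closure_iff.1 hcl' _ (hWo.preimage (f := fun q => q - y)
        (continuous_id.sub continuous_const)) (by
          simp only [hW, mem_preimage, mem_inter_iff, sub_self, add_zero]
          exact ⟨hy, hz⟩)
      exact ⟨q - y, hq, by simpa using hqU⟩
    have hW2o : IsOpen (W ∩ (fun δ => y + δ) ⁻¹' U i) :=
      hWo.inter ((hUo i).preimage (continuous_const_add y))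
    have h2 : (W ∩ (fun δ => y + δ) ⁻¹' U i ∩ (fun δ => z + δ) ⁻¹' U i).Nonempty := by
      obtain ⟨δ, hδ⟩ := h1
      have hcl' : z + δ ∈ closure (U i) := interior_subset hδ.1.2
      obtain ⟨q, hq, hqU⟩ := mem_closure_iff.1 hcl' _ (hW2o.preimage (f := fun q => q - z)
        (continuous_id.sub continuous_const)) (by simpa using hδ)
      exact ⟨q - z, hq, by simpa using hqU⟩
    have hmg := ((hM i).preimage_of_isOpenMap (continuous_const_add y)
      (Homeomorph.addLeft y).isOpenMap).union ((hM i).preimage_of_isOpenMap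
        (continuous_const_add z) (Homeomorph.addLeft z).isOpenMap)
    refine not_isMeagre_of_isOpen (hW2o.inter ((hUo i).preimage (continuous_const_add z))) h2
      (hmg.mono ?_)
    rintro δ ⟨⟨-, hy'⟩, hz'⟩
    by_cases h : y + δ ∈ M i
    · exact Or.inl h
    refine Or.inr (by_contra fun h' => hcon (y + δ) (z + δ) ?_ ?_)
    · rwa [dist_add_right]
    · rw [(hMU i _ h).2 hy', (hMU i _ h').2 hz']
  exact six E hE hB hR hcl hd

end Vale.Agent.Results.P032.BaireSixColours
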